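import Vale.Agent.P038.Defs

/-!
# P038 (H442): the comparison of the two minimal cuts

`A` is a reflexive and antisymmetric relation on a finite set (the arcs and the loops of an
oriented graph), `N A S` the closed out-neighbourhood of a set and `c A S` the number of its new
vertices. For a pair of families `B, C` of sets with the smallest total boundary among the pairs
with `N[a] ⊆ B a`, `N[b] ⊆ C b` and never `b ∈ B a`, `a ∈ C b` for `a ≠ b`, the pair of the
intersections over the closed in-neighbourhoods has at most the same total boundary.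
-/

namespace Vale.Agent.P038.H442

open Finset

section Layer

/-- Layer cake for natural numbers. -/
theorem layer {ι : Type*} [Fintype ι] (f g : ι → ℕ)
    (h : ∀ s : ℕ, (univ.filter fun a => s < f a).card ≤ (univ.filter fun a => s < g a).card) :
    ∑ a, f a ≤ ∑ a, g a := by
  have key : ∀ (M : ℕ) (f' : ι → ℕ), (∀ a, f' a ≤ M) →
      ∑ a, f' a = ∑ s ∈ range M, (univ.filter fun a => s < f' a).card := by
    intro M f' hf'
    have h1 : ∀ a, f' a = ∑ s ∈ range M, if s < f' a then 1 else 0 := by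
      intro a
      rw [← Finset.sum_filter]
      have h2 : (range M).filter (fun s => s < f' a) = range (f' a) := by
        ext s
        simp only [Finset.mem_filter, Finset.mem_range]
        constructor
        · exact fun h3 => h3.2
        · exact fun h3 => ⟨lt_of_lt_of_le h3 (hf' a), h3⟩
      rw [h2]
      simp
    calc ∑ a, f' a = ∑ a, ∑ s ∈ range M, (if s < f' a then 1 else 0) :=
          Finset.sum_congr rfl fun a _ => h1 a
      _ = ∑ s ∈ range M, ∑ a, (if s < f' a then 1 else 0) := Finset.sum_comm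
      _ = _ := by
          refine Finset.sum_congr rfl fun s _ => ?_
          rw [Finset.card_filter]
  have hf : ∀ a, f a ≤ (∑ a, f a) + ∑ a, g a := fun a =>
    le_trans (Finset.single_le_sum (f := f) (fun _ _ => Nat.zero_le _) (Finset.mem_univ a))
      (Nat.le_add_right _ _)
  have hg : ∀ a, g a ≤ (∑ a, f a) + ∑ a, g a := fun a =>
    le_trans (Finset.single_le_sum (f := g) (fun _ _ => Nat.zero_le _) (Finset.mem_univ a))
      (Nat.le_add_left _ _)
  have e1 := key _ f hf
  have e2 := key _ g hg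
  calc ∑ a, f a = _ := e1
    _ ≤ _ := Finset.sum_le_sum fun s _ => h s
    _ = ∑ a, g a := e2.symm

/-- Layer cake for integer valued functions. -/
theorem layerZ {ι : Type*} [Fintype ι] (f g : ι → ℤ) (hf : ∀ a, 0 ≤ f a) (hg : ∀ a, 0 ≤ g a)
    (h : ∀ s : ℕ, (univ.filter fun a => (s : ℤ) < f a).card ≤
      (univ.filter fun a => (s : ℤ) < g a).card) :
    ∑ a, f a ≤ ∑ a, g a := by
  have h1 := layer (fun a => (f a).toNat) (fun a => (g a).toNat) (by
    intro s
    have e1 : (univ.filter fun a => s < (f a).toNat) = univ.filter fun a => (s : ℤ) < f a := by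
      ext a
      simp only [Finset.mem_filter, Finset.mem_univ, true_and]
      omega
    have e2 : (univ.filter fun a => s < (g a).toNat) = univ.filter fun a => (s : ℤ) < g a := by
      ext a
      simp only [Finset.mem_filter, Finset.mem_univ, true_and]
      omega
    rw [e1, e2]
    exact h s)
  have h2 : ((∑ a, (f a).toNat : ℕ) : ℤ) = ∑ a, f a := by
    rw [Nat.cast_sum]
    exact Finset.sum_congr rfl fun a _ => Int.toNat_of_nonneg (hf a)
  have h3 : ((∑ a, (g a).toNat : ℕ) : ℤ) = ∑ a, g a := by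
    rw [Nat.cast_sum]
    exact Finset.sum_congr rfl fun a _ => Int.toNat_of_nonneg (hg a)
  rw [← h2, ← h3]
  exact_mod_cast h1

/-- Telescoping along an enumeration. -/
theorem tele {V : Type*} [Fintype V] {n : ℕ} (e : V ≃ Fin n) (φ : ℕ → ℤ) :
    ∑ b, (φ ((e b : ℕ) + 1) - φ (e b)) = φ n - φ 0 := by
  rw [← Finset.sum_range_sub φ n,
    ← Fin.sum_univ_eq_sum_range (fun k => φ (k + 1) - φ k) n]
  exact Equiv.sum_comp e (fun i : Fin n => φ ((i : ℕ) + 1) - φ i)

end Layer

section Opt

variable {V : Type*} [Fintype V] [DecidableEq V]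

theorem exists_opt (f : Finset V → ℤ) (K Y : Finset V) (h : Y ⊆ K) :
    ∃ Z, Y ⊆ Z ∧ Z ⊆ K ∧ ∀ Z', Y ⊆ Z' → Z' ⊆ K → f Z ≤ f Z' := by
  classical
  obtain ⟨Z, hZ, hmin⟩ := Finset.exists_min_image
    (univ.filter fun Z : Finset V => Y ⊆ Z ∧ Z ⊆ K) f
    ⟨Y, Finset.mem_filter.2 ⟨Finset.mem_univ _, Finset.Subset.refl _, h⟩⟩
  have hZ' := (Finset.mem_filter.1 hZ).2
  exact ⟨Z, hZ'.1, hZ'.2, fun Z' h1 h2 =>
    hmin Z' (Finset.mem_filter.2 ⟨Finset.mem_univ _, h1, h2⟩)⟩

open Classical in
/-- The smallest value of `f` between `Y` and `K`. -/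
noncomputable def cm (f : Finset V → ℤ) (K Y : Finset V) : ℤ :=
  if h : Y ⊆ K then f (Classical.choose (exists_opt f K Y h)) else 0

theorem cm_le {f : Finset V → ℤ} {K Y Z : Finset V} (h1 : Y ⊆ Z) (h2 : Z ⊆ K) :
    cm f K Y ≤ f Z := by
  have h : Y ⊆ K := h1.trans h2
  unfold cm
  rw [dif_pos h]
  exact (Classical.choose_spec (exists_opt f K Y h)).2.2 Z h1 h2

theorem cm_ex {f : Finset V → ℤ} {K Y : Finset V} (h : Y ⊆ K) :
    ∃ Z, Y ⊆ Z ∧ Z ⊆ K ∧ f Z = cm f K Y := by
  unfold cm
  rw [dif_pos h]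
  have h1 := Classical.choose_spec (exists_opt f K Y h)
  exact ⟨_, h1.1, h1.2.1, rfl⟩

theorem cm_mono {f : Finset V → ℤ} {K Y Y' : Finset V} (h : Y ⊆ Y') (h' : Y' ⊆ K) :
    cm f K Y ≤ cm f K Y' := by
  obtain ⟨Z, h1, h2, h3⟩ := cm_ex (f := f) h'
  rw [← h3]
  exact cm_le (h.trans h1) h2

theorem cm_self {f : Finset V → ℤ} (K : Finset V) : cm f K K = f K := by
  obtain ⟨Z, h1, h2, h3⟩ := cm_ex (f := f) (Finset.Subset.refl K)
  rw [← h3, Finset.Subset.antisymm h2 h1]

/-- The exchange inequality of the marginals. -/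
theorem cm_exch {f : Finset V → ℤ} (hf : ∀ S T, f (S ∪ T) + f (S ∩ T) ≤ f S + f T)
    {K K' X X' Y Y' : Finset V} (hKK : K' ⊆ K) (hXX' : X ⊆ X') (hX'K : X' ⊆ K')
    (hXY : X ⊆ Y) (hYK : Y ⊆ K) (hY' : Y' ⊆ Y ∪ X') :
    cm f K' X + cm f K Y' ≤ cm f K' X' + cm f K Y := by
  obtain ⟨Z', h1, h2, h3⟩ := cm_ex (f := f) hX'K
  obtain ⟨Z, h4, h5, h6⟩ := cm_ex (f := f) hYK
  rw [← h3, ← h6]
  have h7 := hf Z' Z
  have h8 : cm f K' X ≤ f (Z' ∩ Z) :=
    cm_le (Finset.subset_inter (hXX'.trans h1) (hXY.trans h4))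
      (Finset.inter_subset_left.trans h2)
  have h9 : cm f K Y' ≤ f (Z' ∪ Z) :=
    cm_le (hY'.trans (Finset.union_subset (h4.trans Finset.subset_union_right)
      (h1.trans Finset.subset_union_left))) (Finset.union_subset (h2.trans hKK) h5)
  linarith

end Opt

section Key

variable {V : Type*} [Fintype V] [DecidableEq V] (A : V → V → Prop)

open Classical in
/-- The intersection over the in-neighbourhood. -/
noncomputable def I (B : V → Finset V) (v : V) : Finset V :=
  univ.filter fun b => ∀ s, A s v → b ∈ B s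

theorem mem_I {B : V → Finset V} {v b : V} : b ∈ I A B v ↔ ∀ s, A s v → b ∈ B s := by
  classical
  simp [I]

/-- Intersections of optimal sets are optimal. -/
theorem I_opt {f : Finset V → ℤ} (hf : ∀ S T, f (S ∪ T) + f (S ∩ T) ≤ f S + f T)
    {B U : V → Finset V}
    (hR : ∀ a S, B a ⊆ S → S ⊆ U a → f (B a) ≤ f S) (hBU : ∀ a, B a ⊆ U a)
    (v : V) (Z : Finset V) (h1 : I A B v ⊆ Z) (h2 : Z ⊆ I A U v) :
    f (I A B v) ≤ f Z := by
  classical
  have key : ∀ (P : Finset V), (∀ s ∈ P, A s v) →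
      f (Z.filter fun b => ∀ s ∈ P, b ∈ B s) ≤ f Z := by
    intro P
    induction P using Finset.induction_on with
    | empty =>
      intro _
      simp
    | insert s P hs ih =>
      intro hP
      have h3 := ih fun s' hs' => hP s' (Finset.mem_insert_of_mem hs')
      have h4 : (Z.filter fun b => ∀ s' ∈ insert s P, b ∈ B s') =
          (Z.filter fun b => ∀ s' ∈ P, b ∈ B s') ∩ B s := by
        ext b
        simp only [Finset.mem_filter, Finset.mem_inter, Finset.mem_insert, forall_eq_or_imp]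
        tauto
      rw [h4]
      have h5 := hf (Z.filter fun b => ∀ s' ∈ P, b ∈ B s') (B s)
      have h6 : f (B s) ≤ f ((Z.filter fun b => ∀ s' ∈ P, b ∈ B s') ∪ B s) := by
        refine hR s _ Finset.subset_union_right (Finset.union_subset ?_ (hBU s))
        intro b hb
        have hb1 := h2 (Finset.mem_filter.1 hb).1
        rw [mem_I] at hb1
        exact hb1 s (hP s (Finset.mem_insert_self _ _))
      linarith
  have h7 := key (univ.filter fun s => A s v) (by
    intro s hs
    exact (Finset.mem_filter.1 hs).2)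
  have h8 : (Z.filter fun b => ∀ s ∈ univ.filter (fun s => A s v), b ∈ B s) = I A B v := by
    ext b
    simp only [Finset.mem_filter, Finset.mem_univ, true_and, mem_I]
    constructor
    · exact fun h9 => h9.2
    · exact fun h9 => ⟨h1 ((mem_I A).2 h9), h9⟩
  rw [h8] at h7
  exact h7

/-- The key inequality. -/
theorem key {f : Finset V → ℤ} (hf : ∀ S T, f (S ∪ T) + f (S ∩ T) ≤ f S + f T)
    {B U : V → Finset V}
    (hR : ∀ a S, B a ⊆ S → S ⊆ U a → f (B a) ≤ f S) (hBU : ∀ a, B a ⊆ U a)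
    (hC : ∀ (b : V) (T : Finset V), (∀ a ∈ T, b ∈ U a ∧ b ∉ B a) →
      ∃ T' : Finset V, T.card ≤ T'.card ∧ ∀ v ∈ T', b ∈ I A U v ∧ ∃ s ∈ T, A s v) :
    ∑ a, (f (U a) - f (B a)) ≤ ∑ v, (f (I A U v) - f (I A B v)) := by
  classical
  set n := Fintype.card V with hn
  set e : V ≃ Fin n := Fintype.equivFin V with he
  set W : ℕ → Finset V := fun k => univ.filter fun v => (e v : ℕ) < k with hW
  have memW : ∀ k v, v ∈ W k ↔ (e v : ℕ) < k := by
    intro k v
    simp [hW]
  have W0 : W 0 = ∅ := by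
    ext v
    simp [memW]
  have Wn : W n = univ := by
    ext v
    simp [memW]
  have Wmono : ∀ k, W k ⊆ W (k + 1) := by
    intro k v hv
    rw [memW] at hv ⊢
    omega
  have Wsucc : ∀ b v, v ∈ W ((e b : ℕ) + 1) → v ∈ W (e b : ℕ) ∨ v = b := by
    intro b v hv
    rw [memW] at hv ⊢
    rcases Nat.lt_or_ge (e v : ℕ) (e b : ℕ) with h1 | h1
    · exact Or.inl h1
    · right
      apply e.injective
      apply Fin.ext
      omega
  set φ : Finset V → Finset V → ℕ → ℤ := fun P Q k => cm f Q (P ∪ (Q ∩ W k)) with hφ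
  have hφn : ∀ P Q, P ⊆ Q → φ P Q n = f Q := by
    intro P Q hPQ
    simp only [hφ]
    rw [Wn, Finset.inter_univ, Finset.union_eq_right.2 hPQ, cm_self]
  have hφmono : ∀ P Q k, P ⊆ Q → φ P Q k ≤ φ P Q (k + 1) := by
    intro P Q k hPQ
    simp only [hφ]
    refine cm_mono (Finset.union_subset_union (Finset.Subset.refl _)
      (Finset.inter_subset_inter (Finset.Subset.refl _) (Wmono k)))
      (Finset.union_subset hPQ Finset.inter_subset_left)
  have hIBU : ∀ v, I A B v ⊆ I A U v := by
    intro v b hb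
    rw [mem_I] at hb ⊢
    exact fun s hs => hBU s (hb s hs)
  have hφ0 : ∀ a, φ (B a) (U a) 0 = f (B a) := by
    intro a
    simp only [hφ]
    rw [W0, Finset.inter_empty, Finset.union_empty]
    apply le_antisymm
    · exact cm_le (Finset.Subset.refl _) (hBU a)
    · obtain ⟨Z, h1, h2, h3⟩ := cm_ex (f := f) (hBU a)
      rw [← h3]
      exact hR a Z h1 h2
  have hψ0 : ∀ v, φ (I A B v) (I A U v) 0 = f (I A B v) := by
    intro v
    simp only [hφ]
    rw [W0, Finset.inter_empty, Finset.union_empty]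
    apply le_antisymm
    · exact cm_le (Finset.Subset.refl _) (hIBU v)
    · obtain ⟨Z, h1, h2, h3⟩ := cm_ex (f := f) (hIBU v)
      rw [← h3]
      exact I_opt A hf hR hBU v Z h1 h2
  -- the marginals
  set y : V → V → ℤ := fun b a =>
    φ (B a) (U a) ((e b : ℕ) + 1) - φ (B a) (U a) (e b : ℕ) with hy
  set m : V → V → ℤ := fun b v =>
    φ (I A B v) (I A U v) ((e b : ℕ) + 1) - φ (I A B v) (I A U v) (e b : ℕ) with hm
  have hy0 : ∀ b a, 0 ≤ y b a := fun b a => sub_nonneg.2 (hφmono _ _ _ (hBU a))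
  have hm0 : ∀ b v, 0 ≤ m b v := fun b v => sub_nonneg.2 (hφmono _ _ _ (hIBU v))
  have hyG : ∀ b a, 0 < y b a → b ∈ U a ∧ b ∉ B a := by
    intro b a h1
    by_contra h2
    have h3 : B a ∪ (U a ∩ W ((e b : ℕ) + 1)) ⊆ B a ∪ (U a ∩ W (e b : ℕ)) := by
      intro x hx
      rcases Finset.mem_union.1 hx with hx | hx
      · exact Finset.mem_union_left _ hx
      · obtain ⟨hx1, hx2⟩ := Finset.mem_inter.1 hx
        rcases Wsucc b x hx2 with hx3 | hx3
        · exact Finset.mem_union_right _ (Finset.mem_inter.2 ⟨hx1, hx3⟩)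
        · subst hx3
          by_cases hxB : x ∈ B a
          · exact Finset.mem_union_left _ hxB
          · exact absurd ⟨hx1, hxB⟩ h2
    have h4 : φ (B a) (U a) ((e b : ℕ) + 1) ≤ φ (B a) (U a) (e b : ℕ) := by
      simp only [hφ]
      exact cm_mono h3 (Finset.union_subset (hBU a) Finset.inter_subset_left)
    have h5 : y b a ≤ 0 := sub_nonpos.2 h4
    linarith
  have hmy : ∀ b v z, A z v → b ∈ I A U v → y b z ≤ m b v := by
    intro b v z hz hb
    have hIz : I A U v ⊆ U z := fun x hx => (mem_I A).1 hx z hz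
    have hBz : I A B v ⊆ B z := fun x hx => (mem_I A).1 hx z hz
    have h1 := cm_exch (f := f) hf (K := U z) (K' := I A U v)
      (X := I A B v ∪ (I A U v ∩ W (e b : ℕ)))
      (X' := I A B v ∪ (I A U v ∩ W ((e b : ℕ) + 1)))
      (Y := B z ∪ (U z ∩ W (e b : ℕ))) (Y' := B z ∪ (U z ∩ W ((e b : ℕ) + 1)))
      hIz
      (Finset.union_subset_union (Finset.Subset.refl _)
        (Finset.inter_subset_inter (Finset.Subset.refl _) (Wmono _)))
      (Finset.union_subset (hIBU v) Finset.inter_subset_left)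
      (Finset.union_subset_union hBz (Finset.inter_subset_inter hIz (Finset.Subset.refl _)))
      (Finset.union_subset (hBU z) Finset.inter_subset_left)
      (by
        intro x hx
        rcases Finset.mem_union.1 hx with hx | hx
        · exact Finset.mem_union_left _ (Finset.mem_union_left _ hx)
        · obtain ⟨hx1, hx2⟩ := Finset.mem_inter.1 hx
          rcases Wsucc b x hx2 with hx3 | hx3
          · exact Finset.mem_union_left _
              (Finset.mem_union_right _ (Finset.mem_inter.2 ⟨hx1, hx3⟩))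
          · subst hx3
            exact Finset.mem_union_right _
              (Finset.mem_union_right _ (Finset.mem_inter.2 ⟨hb, hx2⟩)))
    simp only [hy, hm, hφ]
    linarith
  have hcol : ∀ b, ∑ a, y b a ≤ ∑ v, m b v := by
    intro b
    refine layerZ _ _ (hy0 b) (hm0 b) fun s => ?_
    obtain ⟨T', h1, h2⟩ := hC b (univ.filter fun a => (s : ℤ) < y b a) (by
      intro a ha
      have h3 := (Finset.mem_filter.1 ha).2
      refine hyG b a (lt_of_le_of_lt ?_ h3)
      exact_mod_cast Nat.zero_le s)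
    refine h1.trans (Finset.card_le_card ?_)
    intro v hv
    obtain ⟨h4, z, hz, hzv⟩ := h2 v hv
    refine Finset.mem_filter.2 ⟨Finset.mem_univ _, ?_⟩
    exact lt_of_lt_of_le (Finset.mem_filter.1 hz).2 (hmy b v z hzv h4)
  have h1 : ∑ a, (f (U a) - f (B a)) = ∑ b, ∑ a, y b a := by
    rw [Finset.sum_comm]
    refine Finset.sum_congr rfl fun a _ => ?_
    rw [tele e (φ (B a) (U a)), hφn _ _ (hBU a), hφ0]
  have h2 : ∑ v, (f (I A U v) - f (I A B v)) = ∑ b, ∑ v, m b v := by
    rw [Finset.sum_comm]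
    refine Finset.sum_congr rfl fun v _ => ?_
    rw [tele e (φ (I A B v) (I A U v)), hφn _ _ (hIBU v), hψ0]
  rw [h1, h2]
  exact Finset.sum_le_sum fun b _ => hcol b

end Key

end Vale.Agent.P038.H442
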