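import Vale.Agent.P038.H442.Shift

/-!
# P038 (H442): the boundary inequality in an arc-minimal counterexample
-/

namespace Vale.Agent.P038.H442

open Finset

section G

universe u

variable {V : Type u} [Fintype V] [DecidableEq V]

/-- Arcs and loops. -/
def R (D : OGraph V) (x y : V) : Prop := x = y ∨ D.arc x y

theorem R_refl (D : OGraph V) (x : V) : R D x x := Or.inl rfl

theorem R_anti (D : OGraph V) (x y : V) (h : R D x y) (h' : R D y x) : x = y := by
  rcases h with h | h
  · exact h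
  · rcases h' with h' | h'
    · exact h'.symm
    · exact absurd h' (D.asymm x y h)

/-- Deleting the arcs from `X` to `Z`. -/
def del (D : OGraph V) (X Z : Finset V) : OGraph V where
  arc u v := D.arc u v ∧ ¬ (u ∈ X ∧ v ∈ Z)
  loopless v h := D.loopless v h.1
  asymm u v h h' := D.asymm u v h.1 h'.1

open Classical in
/-- The number of arcs. -/
noncomputable def arcs (D : OGraph V) : ℕ :=
  (univ.filter fun p : V × V => D.arc p.1 p.2).card

/-- Every vertex is a violation of the conjecture. -/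
def CE (D : OGraph V) : Prop := ∀ v, (N2 D v).card < (N1 D v).card

theorem del_arcs (D : OGraph V) (X Z : Finset V) {x z : V} (hx : x ∈ X) (hz : z ∈ Z)
    (h : D.arc x z) : arcs (del D X Z) < arcs D := by
  classical
  unfold arcs
  apply Finset.card_lt_card
  rw [Finset.ssubset_iff_of_subset]
  · refine ⟨(x, z), ?_, ?_⟩
    · exact Finset.mem_filter.2 ⟨Finset.mem_univ _, h⟩
    · intro h1
      exact (Finset.mem_filter.1 h1).2.2 ⟨hx, hz⟩
  · intro p hp
    exact Finset.mem_filter.2 ⟨Finset.mem_univ _, (Finset.mem_filter.1 hp).2.1⟩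

/-- The function of the sets `T ⊆ L`. -/
noncomputable def dd (D : OGraph V) (X T : Finset V) : ℤ :=
  ((N (R D) T \ X).card : ℤ) - 2 * T.card

theorem row_out (D : OGraph V) (hce : CE D) (X Z : Finset V) {y : V} (hy : y ∉ X) :
    (N2 (del D X Z) y).card < (N1 (del D X Z) y).card := by
  have h1 : N1 (del D X Z) y = N1 D y := by
    ext z
    rw [mem_N1, mem_N1]
    exact ⟨fun h3 => h3.1, fun h3 => ⟨h3, fun h4 => hy h4.1⟩⟩
  have h2 : N2 (del D X Z) y ⊆ N2 D y := by
    intro z hz
    rw [mem_N2] at hz ⊢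
    obtain ⟨hzv, hnz, c, hvc, hcz⟩ := hz
    exact ⟨hzv, fun h3 => hnz ⟨h3, fun h4 => hy h4.1⟩, c, hvc.1, hcz.1⟩
  rw [h1]
  exact lt_of_le_of_lt (Finset.card_le_card h2) (hce y)

theorem row_in (D : OGraph V) (hce : CE D) (X T : Finset V) {y : V} (hy : y ∈ X)
    (hT : T ⊆ N (R D) X \ X)
    (hmin : ∀ S, T ⊆ S → S ⊆ N (R D) X \ X → dd D X T ≤ dd D X S) :
    (N2 (del D X ((N (R D) X \ X) \ T)) y).card <
      (N1 (del D X ((N (R D) X \ X) \ T)) y).card := by
  set L := N (R D) X \ X with hL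
  set Z := L \ T with hZ
  set D' := del D X Z with hD'
  set Dy := N1 D y ∩ Z with hDy
  set Ey := N (R D) Dy \ (N (R D) T ∪ X) with hEy
  have hN1 : N1 D' y = N1 D y \ Dy := by
    ext z
    rw [mem_N1, Finset.mem_sdiff, hDy, Finset.mem_inter, mem_N1]
    constructor
    · rintro ⟨h1, h2⟩
      exact ⟨h1, fun h3 => h2 ⟨hy, h3.2⟩⟩
    · rintro ⟨h1, h2⟩
      exact ⟨h1, fun h3 => h2 ⟨h1, h3.2⟩⟩
  have hTN : T ⊆ N (R D) T := sub_N (R D) (R_refl D) T
  have hEsub : Ey ⊆ N2 D y ∪ Dy := by
    intro z hz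
    obtain ⟨hz1, hz2⟩ := Finset.mem_sdiff.1 hz
    have hzX : z ∉ X := fun h3 => hz2 (Finset.mem_union_right _ h3)
    have hzT : z ∉ N (R D) T := fun h3 => hz2 (Finset.mem_union_left _ h3)
    obtain ⟨c, hc, hcz⟩ := (mem_N _).1 hz1
    rcases hcz with hcz | hcz
    · subst hcz
      exact Finset.mem_union_right _ hc
    · have hyc : D.arc y c := mem_N1.1 (Finset.mem_inter.1 hc).1
      by_cases hyz : D.arc y z
      · refine Finset.mem_union_right _ (Finset.mem_inter.2 ⟨mem_N1.2 hyz, ?_⟩)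
        refine Finset.mem_sdiff.2 ⟨?_, ?_⟩
        · exact Finset.mem_sdiff.2 ⟨(mem_N _).2 ⟨y, hy, Or.inr hyz⟩, hzX⟩
        · exact fun h3 => hzT (hTN h3)
      · refine Finset.mem_union_left _ (mem_N2.2 ⟨?_, hyz, c, hyc, hcz⟩)
        rintro rfl
        exact hzX hy
  have hN2 : N2 D' y ⊆ (N2 D y ∪ Dy) \ Ey := by
    intro z hz
    rw [mem_N2] at hz
    obtain ⟨hzy, hnz, c, hyc, hcz⟩ := hz
    refine Finset.mem_sdiff.2 ⟨?_, ?_⟩
    · by_cases hyz : D.arc y z
      · refine Finset.mem_union_right _ (Finset.mem_inter.2 ⟨mem_N1.2 hyz, ?_⟩)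
        by_contra hzZ
        exact hnz ⟨hyz, fun h3 => hzZ h3.2⟩
      · exact Finset.mem_union_left _ (mem_N2.2 ⟨hzy, hyz, c, hyc.1, hcz.1⟩)
    · intro hzE
      obtain ⟨_, hz2⟩ := Finset.mem_sdiff.1 hzE
      have hzX : z ∉ X := fun h3 => hz2 (Finset.mem_union_right _ h3)
      have hzT : z ∉ N (R D) T := fun h3 => hz2 (Finset.mem_union_left _ h3)
      by_cases hcX : c ∈ X
      · have hzL : z ∈ L := Finset.mem_sdiff.2 ⟨(mem_N _).2 ⟨c, hcX, Or.inr hcz.1⟩, hzX⟩
        have hzZ : z ∈ Z := Finset.mem_sdiff.2 ⟨hzL, fun h3 => hzT (hTN h3)⟩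
        exact hcz.2 ⟨hcX, hzZ⟩
      · have hcL : c ∈ L := Finset.mem_sdiff.2 ⟨(mem_N _).2 ⟨y, hy, Or.inr hyc.1⟩, hcX⟩
        have hcT : c ∈ T := by
          by_contra hcT
          exact hyc.2 ⟨hy, Finset.mem_sdiff.2 ⟨hcL, hcT⟩⟩
        exact hzT ((mem_N _).2 ⟨c, hcT, Or.inr hcz.1⟩)
  have hDT : Disjoint T Dy := by
    rw [Finset.disjoint_left]
    intro z hz hz'
    exact (Finset.mem_sdiff.1 (Finset.mem_inter.1 hz').2).2 hz
  have e1 : N (R D) (T ∪ Dy) \ X = (N (R D) T \ X) ∪ Ey := by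
    rw [N_union]
    ext z
    simp only [hEy, Finset.mem_sdiff, Finset.mem_union]
    tauto
  have e2 : Disjoint (N (R D) T \ X) Ey := by
    rw [Finset.disjoint_left]
    intro z hz hz'
    exact (Finset.mem_sdiff.1 hz').2 (Finset.mem_union_left _ (Finset.mem_sdiff.1 hz).1)
  have h1 := hmin (T ∪ Dy) Finset.subset_union_left
    (Finset.union_subset hT (Finset.inter_subset_right.trans Finset.sdiff_subset))
  unfold dd at h1
  rw [e1, Finset.card_union_of_disjoint e2, Finset.card_union_of_disjoint hDT] at h1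
  push_cast at h1
  have h2 : (N2 D' y).card ≤ (N2 D y ∪ Dy).card - Ey.card := by
    rw [← Finset.card_sdiff_of_subset hEsub]
    exact Finset.card_le_card hN2
  have h3 : (N2 D y ∪ Dy).card ≤ (N2 D y).card + Dy.card := Finset.card_union_le _ _
  have h4 : Ey.card ≤ (N2 D y ∪ Dy).card := Finset.card_le_card hEsub
  have h5 : (N1 D' y).card = (N1 D y).card - Dy.card := by
    rw [hN1, Finset.card_sdiff_of_subset Finset.inter_subset_left]
  have h6 : Dy.card ≤ (N1 D y).card := Finset.card_le_card Finset.inter_subset_left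
  have h7 := hce y
  omega

/-- In an arc-minimal counterexample the boundary of a set that is not closed is larger than the
boundary of its closed out-neighbourhood. -/
theorem strictG (D : OGraph V) (hce : CE D) (hmin : ∀ D' : OGraph V, CE D' → arcs D ≤ arcs D')
    (X : Finset V) (hX : 0 < c (R D) X) : c (R D) (N (R D) X) < c (R D) X := by
  classical
  by_contra hcon
  rw [not_lt] at hcon
  have hXN : X ⊆ N (R D) X := sub_N _ (R_refl D) X
  set L := N (R D) X \ X with hL
  have hLX : N (R D) X = X ∪ L := by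
    rw [hL, Finset.union_sdiff_self_eq_union, Finset.union_eq_right.2 hXN]
  have hdisj : Disjoint X L := by
    rw [hL]
    exact Finset.disjoint_sdiff
  have hcL : (N (R D) X).card = X.card + L.card := by
    rw [hLX, Finset.card_union_of_disjoint hdisj]
  have hLne : L.Nonempty := by
    rw [← Finset.card_pos]
    unfold c at hX
    omega
  have hd0 : dd D X ∅ = 0 := by
    have h1 : N (R D) (∅ : Finset V) = ∅ := by
      ext z
      rw [mem_N]
      simp
    unfold dd
    rw [h1]
    simp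
  have hdL : 0 ≤ dd D X L := by
    have h1 : N (R D) (N (R D) X) = X ∪ (N (R D) L \ X) := by
      have h2 : L ⊆ N (R D) L := sub_N _ (R_refl D) L
      ext z
      constructor
      · intro hz
        rw [hLX, N_union] at hz
        by_cases hzX : z ∈ X
        · exact Finset.mem_union_left _ hzX
        · refine Finset.mem_union_right _ (Finset.mem_sdiff.2 ⟨?_, hzX⟩)
          rcases Finset.mem_union.1 hz with hz | hz
          · exact h2 (Finset.mem_sdiff.2 ⟨hz, hzX⟩)
          · exact hz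
      · intro hz
        rw [hLX, N_union]
        rcases Finset.mem_union.1 hz with hz | hz
        · exact Finset.mem_union_left _ (hXN hz)
        · exact Finset.mem_union_right _ (Finset.mem_sdiff.1 hz).1
    have h3 : (N (R D) (N (R D) X)).card = X.card + (N (R D) L \ X).card := by
      rw [h1, Finset.card_union_of_disjoint Finset.disjoint_sdiff]
    unfold c at hcon
    unfold dd
    omega
  obtain ⟨T, hT, hTmin⟩ := Finset.exists_min_image
    (univ.filter fun T : Finset V => T ⊂ L) (dd D X)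
    ⟨∅, Finset.mem_filter.2 ⟨Finset.mem_univ _, Finset.empty_ssubset.2 hLne⟩⟩
  have hTL := (Finset.mem_filter.1 hT).2
  have hmin' : ∀ S, T ⊆ S → S ⊆ L → dd D X T ≤ dd D X S := by
    intro S _ hS
    rcases hS.eq_or_ssubset with h1 | h1
    · rw [h1]
      have h2 := hTmin ∅ (Finset.mem_filter.2 ⟨Finset.mem_univ _, Finset.empty_ssubset.2 hLne⟩)
      linarith
    · exact hTmin S (Finset.mem_filter.2 ⟨Finset.mem_univ _, h1⟩)
  have hce' : CE (del D X (L \ T)) := by
    intro v
    by_cases hv : v ∈ X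
    · exact row_in D hce X T hv hTL.subset hmin'
    · exact row_out D hce X _ hv
  obtain ⟨z, hzL, hzT⟩ := Finset.exists_of_ssubset hTL
  obtain ⟨hz1, hz2⟩ := Finset.mem_sdiff.1 hzL
  obtain ⟨x, hx, hxz⟩ := (mem_N _).1 hz1
  rcases hxz with hxz | hxz
  · subst hxz
    exact hz2 hx
  · have h1 := del_arcs D X (L \ T) hx (Finset.mem_sdiff.2 ⟨hzL, hzT⟩) hxz
    have h2 := hmin _ hce'
    omega

end G

end Vale.Agent.P038.H442
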