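import Vale.Agent.P038.H442.Gst

/-!
# P038 (H442): Seymour's second neighbourhood conjecture
-/

namespace Vale.Agent.P038.H442

open Finset

universe u

section

variable {V : Type u} [Fintype V] [DecidableEq V]

theorem exists_min_F0 (A : V → V → Prop) (hanti : ∀ a b, A a b → A b a → a = b) :
    ∃ B C, F0 A B C ∧ ∀ B' C', F0 A B' C' → E A B C ≤ E A B' C' := by
  classical
  obtain ⟨P, hP, hmin⟩ := Finset.exists_min_image
    (univ.filter fun P : (V → Finset V) × (V → Finset V) => F0 A P.1 P.2)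
    (fun P => E A P.1 P.2)
    ⟨(fun a => N A {a}, fun a => N A {a}), Finset.mem_filter.2 ⟨Finset.mem_univ _, by
      refine ⟨?_, ?_, ?_⟩
      · intro a y h
        exact (mem_N A).2 ⟨a, Finset.mem_singleton_self a, h⟩
      · intro a y h
        exact (mem_N A).2 ⟨a, Finset.mem_singleton_self a, h⟩
      · intro a b hb ha
        obtain ⟨x, hx, hxb⟩ := (mem_N A).1 hb
        obtain ⟨y, hy, hya⟩ := (mem_N A).1 ha
        rw [Finset.mem_singleton] at hx hy
        subst hx
        subst hy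
        exact hanti _ _ hxb hya⟩⟩
  exact ⟨P.1, P.2, (Finset.mem_filter.1 hP).2, fun B' C' h =>
    hmin (B', C') (Finset.mem_filter.2 ⟨Finset.mem_univ _, h⟩)⟩

theorem exists_min_F2 (A : V → V → Prop) (hanti : ∀ a b, A a b → A b a → a = b) :
    ∃ X Y, F2 A X Y ∧ ∀ X' Y', F2 A X' Y' → E A X Y ≤ E A X' Y' := by
  classical
  obtain ⟨P, hP, hmin⟩ := Finset.exists_min_image
    (univ.filter fun P : (V → Finset V) × (V → Finset V) => F2 A P.1 P.2)
    (fun P => E A P.1 P.2)
    ⟨(fun a => {a}, fun a => {a}), Finset.mem_filter.2 ⟨Finset.mem_univ _, by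
      refine ⟨fun a => Finset.mem_singleton_self a, fun a => Finset.mem_singleton_self a, ?_⟩
      · intro a b hb ha
        obtain ⟨x, hx, hxb⟩ := (mem_N A).1 hb
        obtain ⟨y, hy, hya⟩ := (mem_N A).1 ha
        rw [Finset.mem_singleton] at hx hy
        subst hx
        subst hy
        exact hanti _ _ hxb hya⟩⟩
  exact ⟨P.1, P.2, (Finset.mem_filter.1 hP).2, fun B' C' h =>
    hmin (B', C') (Finset.mem_filter.2 ⟨Finset.mem_univ _, h⟩)⟩

theorem no_min_CE [Nonempty V] (D : OGraph V) (hce : CE D)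
    (hmin : ∀ D' : OGraph V, CE D' → arcs D ≤ arcs D') : False := by
  classical
  set A := R D with hA
  have hrefl : ∀ a, A a a := R_refl D
  have hanti : ∀ a b, A a b → A b a → a = b := R_anti D
  obtain ⟨B, C, hBC, hBCmin⟩ := exists_min_F0 A hanti
  obtain ⟨X, Y, hXY, hXYmin⟩ := exists_min_F2 A hanti
  have h1 := shift A hrefl hBC hBCmin
  have h2 := hXYmin _ _ (F2_I A hrefl hBC)
  have h3 : F0 A (fun a => N A (X a)) (fun b => N A (Y b)) := by
    refine ⟨?_, ?_, ?_⟩
    · intro a y h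
      exact (mem_N A).2 ⟨a, hXY.b a, h⟩
    · intro a y h
      exact (mem_N A).2 ⟨a, hXY.c a, h⟩
    · exact hXY.d
  have h4 := hBCmin _ _ h3
  have hle : ∀ S, c A (N A S) ≤ c A S := by
    intro S
    rcases (c_nonneg A hrefl S).lt_or_eq with h5 | h5
    · exact (strictG D hce hmin S h5).le
    · -- closed set
      have h6 : (N A S).card ≤ S.card := by
        unfold c at h5
        omega
      have h7 : S = N A S := Finset.eq_of_subset_of_card_le (sub_N A hrefl S) h6
      rw [← h7]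
  have hE : E A X Y ≤ E A (fun a => N A (X a)) (fun b => N A (Y b)) := by linarith
  unfold E at hE
  have hX1 : ∑ a, c A (N A (X a)) ≤ ∑ a, c A (X a) := Finset.sum_le_sum fun a _ => hle (X a)
  have hY1 : ∑ a, c A (N A (Y a)) ≤ ∑ a, c A (Y a) := Finset.sum_le_sum fun a _ => hle (Y a)
  have hX2 : ∑ a, c A (N A (X a)) = ∑ a, c A (X a) := by linarith
  have hY2 : ∑ a, c A (N A (Y a)) = ∑ a, c A (Y a) := by linarith
  have hX3 := (Finset.sum_eq_sum_iff_of_le fun a _ => hle (X a)).1 hX2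
  have hY3 := (Finset.sum_eq_sum_iff_of_le fun a _ => hle (Y a)).1 hY2
  have hclosed : ∀ S, c A (N A S) = c A S → N A S = S := by
    intro S h5
    have h6 : ¬ 0 < c A S := fun h7 => (strictG D hce hmin S h7).ne h5
    have h7 : (N A S).card ≤ S.card := by
      unfold c at h6
      omega
    exact (Finset.eq_of_subset_of_card_le (sub_N A hrefl S) h7).symm
  have hXc : ∀ a, N A (X a) = X a := fun a => hclosed _ (hX3 a (Finset.mem_univ a))
  have hYc : ∀ a, N A (Y a) = Y a := fun a => hclosed _ (hY3 a (Finset.mem_univ a))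
  -- a minimal nonempty closed set
  obtain ⟨K, hK, hKmin⟩ := Finset.exists_min_image
    (univ.filter fun K : Finset V => K.Nonempty ∧ N A K = K) (fun K => K.card)
    ⟨univ, Finset.mem_filter.2 ⟨Finset.mem_univ _, Finset.univ_nonempty,
      Finset.eq_univ_of_forall fun x => (mem_N A).2 ⟨x, Finset.mem_univ x, hrefl x⟩⟩⟩
  obtain ⟨⟨b, hb⟩, hKc⟩ := (Finset.mem_filter.1 hK).2
  have h5 : 0 < (N1 D b).card := lt_of_le_of_lt (Nat.zero_le _) (hce b)
  obtain ⟨b', hb'⟩ := Finset.card_pos.1 h5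
  rw [mem_N1] at hb'
  have hb'K : b' ∈ K := by
    rw [← hKc]
    exact (mem_N A).2 ⟨b, hb, Or.inr hb'⟩
  have h6 : N A (Y b' ∩ K) = Y b' ∩ K := by
    apply Finset.Subset.antisymm
    · exact Finset.subset_inter
        ((N_mono A Finset.inter_subset_left).trans (hYc b').subset)
        ((N_mono A Finset.inter_subset_right).trans hKc.subset)
    · exact sub_N A hrefl _
  have h7 : (Y b' ∩ K).Nonempty := ⟨b', Finset.mem_inter.2 ⟨hXY.c b', hb'K⟩⟩
  have h8 := hKmin (Y b' ∩ K) (Finset.mem_filter.2 ⟨Finset.mem_univ _, h7, h6⟩)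
  have h9 : Y b' ∩ K = K := Finset.eq_of_subset_of_card_le Finset.inter_subset_right h8
  have h10 : b ∈ Y b' := by
    rw [← h9] at hb
    exact (Finset.mem_inter.1 hb).1
  have h11 : b = b' := hXY.d b b' ((mem_N A).2 ⟨b, hXY.b b, Or.inr hb'⟩)
    ((mem_N A).2 ⟨b, h10, hrefl b⟩)
  rw [h11] at hb'
  exact D.loopless _ hb'

end

/-- **Seymour's second neighbourhood conjecture.** -/
theorem snc {V : Type u} [Fintype V] [Nonempty V] (D : OGraph V) :
    ∃ v, (N1 D v).card ≤ (N2 D v).card := by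
  classical
  by_contra hcon
  have hce : CE D := by
    intro v
    by_contra h
    exact hcon ⟨v, not_lt.1 h⟩
  have hex : ∃ k, ∃ D' : OGraph V, CE D' ∧ arcs D' = k := ⟨_, D, hce, rfl⟩
  obtain ⟨D', hce', hk⟩ := Nat.find_spec hex
  refine no_min_CE D' hce' fun D'' h => ?_
  rw [hk]
  exact Nat.find_min' hex ⟨D'', h, rfl⟩

end Vale.Agent.P038.H442
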