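import Vale.Agent.P038.H442.Cut

/-!
# P038 (H442): the shifted pair is at least as good
-/

namespace Vale.Agent.P038.H442

open Finset

section Cuts

variable {V : Type*} [Fintype V] [DecidableEq V] (A : V → V → Prop)

open Classical in
/-- The closed out-neighbourhood of a set. -/
noncomputable def N (S : Finset V) : Finset V := univ.filter fun y => ∃ x ∈ S, A x y

theorem mem_N {S : Finset V} {y : V} : y ∈ N A S ↔ ∃ x ∈ S, A x y := by
  classical
  simp [N]

theorem N_union (S T : Finset V) : N A (S ∪ T) = N A S ∪ N A T := by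
  ext y
  simp only [mem_N, Finset.mem_union]
  constructor
  · rintro ⟨x, hx | hx, hxy⟩
    · exact Or.inl ⟨x, hx, hxy⟩
    · exact Or.inr ⟨x, hx, hxy⟩
  · rintro (⟨x, hx, hxy⟩ | ⟨x, hx, hxy⟩)
    · exact ⟨x, Or.inl hx, hxy⟩
    · exact ⟨x, Or.inr hx, hxy⟩

theorem N_mono {S T : Finset V} (h : S ⊆ T) : N A S ⊆ N A T := by
  intro y hy
  rw [mem_N] at hy ⊢
  obtain ⟨x, hx, hxy⟩ := hy
  exact ⟨x, h hx, hxy⟩

theorem sub_N (hrefl : ∀ a, A a a) (S : Finset V) : S ⊆ N A S := fun x hx =>
  (mem_N A).2 ⟨x, hx, hrefl x⟩

/-- The number of new vertices. -/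
noncomputable def c (S : Finset V) : ℤ := (N A S).card - S.card

theorem c_nonneg (hrefl : ∀ a, A a a) (S : Finset V) : 0 ≤ c A S := by
  have h := Finset.card_le_card (sub_N A hrefl S)
  unfold c
  omega

theorem c_sub (S T : Finset V) : c A (S ∪ T) + c A (S ∩ T) ≤ c A S + c A T := by
  have h1 := N_union A S T
  have h2 : (N A (S ∩ T)).card ≤ (N A S ∩ N A T).card :=
    Finset.card_le_card (Finset.subset_inter (N_mono A Finset.inter_subset_left)
      (N_mono A Finset.inter_subset_right))
  have h3 := Finset.card_union_add_card_inter (N A S) (N A T)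
  have h4 := Finset.card_union_add_card_inter S T
  unfold c
  rw [h1]
  omega

/-- The pairs of families of the outer problem. -/
structure F0 (B C : V → Finset V) : Prop where
  b : ∀ a y, A a y → y ∈ B a
  c : ∀ a y, A a y → y ∈ C a
  d : ∀ a b, b ∈ B a → a ∈ C b → a = b

/-- The pairs of families of the inner problem. -/
structure F2 (X Y : V → Finset V) : Prop where
  b : ∀ a, a ∈ X a
  c : ∀ a, a ∈ Y a
  d : ∀ a b, b ∈ N A (X a) → a ∈ N A (Y b) → a = b

/-- The total boundary. -/
noncomputable def E (B C : V → Finset V) : ℤ := ∑ a, c A (B a) + ∑ b, c A (C b)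

theorem sum_upd (f : V → ℤ) (a : V) (b : ℤ) :
    ∑ x, Function.update f a b x = ∑ x, f x - f a + b := by
  rw [Finset.sum_update_of_mem (Finset.mem_univ a), Finset.sdiff_singleton_eq_erase,
    ← Finset.add_sum_erase univ f (Finset.mem_univ a)]
  ring

theorem c_upd (B : V → Finset V) (a : V) (S : Finset V) :
    ∑ x, c A (Function.update B a S x) = ∑ x, c A (B x) - c A (B a) + c A S := by
  rw [← sum_upd]
  refine Finset.sum_congr rfl fun x _ => ?_
  by_cases hx : x = a
  · subst hx
    simp
  · simp [Function.update_of_ne hx]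

/-- The shifted pair is feasible for the inner problem. -/
theorem F2_I (hrefl : ∀ a, A a a) {B C : V → Finset V} (h : F0 A B C) :
    F2 A (I A B) (I A C) := by
  refine ⟨fun a => (mem_I A).2 fun s hs => h.b s a hs, fun a => (mem_I A).2 fun s hs => h.c s a hs,
    ?_⟩
  intro a b hb ha
  obtain ⟨x, hx, hxb⟩ := (mem_N A).1 hb
  obtain ⟨y, hy, hya⟩ := (mem_N A).1 ha
  rw [mem_I] at hx hy
  have h1 : y = x := h.d y x (hx y hya) (hy x hxb)
  subst h1
  have h2 : a = y := h.d a y (hx a (hrefl a)) (h.c y a hya)
  have h3 : y = b := h.d y b (h.b y b hxb) (hy b (hrefl b))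
  exact h2.trans h3

theorem card_ind (s : Finset V) : (s.card : ℤ) = ∑ a, if a ∈ s then (1 : ℤ) else 0 := by
  simp

theorem sum_card (Y : V → Finset V) :
    ∑ a, ((Y a).card : ℤ) = ∑ a, ∑ b, if b ∈ Y a then (1 : ℤ) else 0 :=
  Finset.sum_congr rfl fun a _ => card_ind (Y a)

theorem sum_card' (X : V → Finset V) :
    ∑ b, ((X b).card : ℤ) = ∑ a, ∑ b, if a ∈ X b then (1 : ℤ) else 0 := by
  rw [Finset.sum_comm]
  exact Finset.sum_congr rfl fun b _ => card_ind (X b)

/-- The shifted pair has at most the same total boundary. -/
theorem shift (hrefl : ∀ a, A a a) {B C : V → Finset V} (h : F0 A B C)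
    (hmin : ∀ B' C', F0 A B' C' → E A B C ≤ E A B' C') :
    E A (I A B) (I A C) ≤ E A B C := by
  classical
  set U : V → Finset V := fun a => univ.filter fun b => b = a ∨ a ∉ C b with hU
  have memU : ∀ a b, b ∈ U a ↔ b = a ∨ a ∉ C b := by
    intro a b
    simp [hU]
  have hBU : ∀ a, B a ⊆ U a := by
    intro a b hb
    rw [memU]
    by_cases hba : b = a
    · exact Or.inl hba
    · exact Or.inr fun h1 => hba (h.d a b hb h1).symm
  have hR : ∀ a S, B a ⊆ S → S ⊆ U a → c A (B a) ≤ c A S := by
    intro a S h1 h2
    have h3 := hmin (Function.update B a S) C (by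
      refine ⟨?_, h.c, ?_⟩
      · intro a' y hy
        by_cases ha : a' = a
        · subst ha
          simpa using h1 (h.b a' y hy)
        · simpa [Function.update_of_ne ha] using h.b a' y hy
      · intro a' b hb hab
        by_cases ha : a' = a
        · subst ha
          have h4 := h2 (by simpa using hb)
          rw [memU] at h4
          rcases h4 with h4 | h4
          · exact h4.symm
          · exact absurd hab h4
        · rw [Function.update_of_ne ha] at hb
          exact h.d a' b hb hab)
    unfold E at h3
    rw [c_upd] at h3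
    linarith
  have hC : ∀ (b : V) (T : Finset V), (∀ a ∈ T, b ∈ U a ∧ b ∉ B a) →
      ∃ T' : Finset V, T.card ≤ T'.card ∧ ∀ v ∈ T', b ∈ I A U v ∧ ∃ s ∈ T, A s v := by
    intro b T hT
    refine ⟨N A T \ N A (C b), ?_, ?_⟩
    · have h3 := hmin B (Function.update C b (C b ∪ T)) (by
        refine ⟨h.b, ?_, ?_⟩
        · intro a' y hy
          by_cases ha : a' = b
          · subst ha
            simpa using Or.inl (h.c a' y hy)
          · simpa [Function.update_of_ne ha] using h.c a' y hy
        · intro a' b' hb hab
          by_cases ha : b' = b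
          · subst ha
            have h4 : a' ∈ C b' ∪ T := by simpa using hab
            rcases Finset.mem_union.1 h4 with h4 | h4
            · exact h.d a' b' hb h4
            · exact absurd hb (hT a' h4).2
          · rw [Function.update_of_ne ha] at hab
            exact h.d a' b' hb hab)
      unfold E at h3
      rw [c_upd] at h3
      have h5 : c A (C b) ≤ c A (C b ∪ T) := by linarith
      have h6 : Disjoint (C b) T := by
        rw [Finset.disjoint_left]
        intro a ha haT
        obtain ⟨h7, h8⟩ := hT a haT
        rw [memU] at h7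
        rcases h7 with h7 | h7
        · subst h7
          exact h8 (h.b b b (hrefl b))
        · exact h7 ha
      have h7 := Finset.card_union_of_disjoint h6
      have h8 : N A (C b ∪ T) = N A (C b) ∪ (N A T \ N A (C b)) := by
        rw [N_union, Finset.union_sdiff_self_eq_union]
      have h9 := Finset.card_union_of_disjoint
        (Finset.disjoint_sdiff (s := N A (C b)) (t := N A T))
      unfold c at h5
      rw [h8, h9, h7] at h5
      push_cast at h5
      omega
    · intro v hv
      obtain ⟨h1, h2⟩ := Finset.mem_sdiff.1 hv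
      obtain ⟨s, hs, hsv⟩ := (mem_N A).1 h1
      refine ⟨(mem_I A).2 fun s' hs' => ?_, s, hs, hsv⟩
      rw [memU]
      right
      intro h3
      exact h2 ((mem_N A).2 ⟨s', h3, hs'⟩)
  have hkey := key A (f := c A) (c_sub A) hR hBU hC
  -- the pointwise inequality
  have hpt : ∀ a b : V,
      (if a ∈ N A (I A C b) then (1 : ℤ) else 0) + (if a ∈ C b then (1 : ℤ) else 0) +
        (if b ∈ U a then (1 : ℤ) else 0) + (if b ∈ N A (I A U a) then (1 : ℤ) else 0) ≤
      (if a ∈ I A C b then (1 : ℤ) else 0) + (if a ∈ N A (C b) then (1 : ℤ) else 0) +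
        (if b ∈ N A (U a) then (1 : ℤ) else 0) + (if b ∈ I A U a then (1 : ℤ) else 0) := by
    intro a b
    by_cases hab : a = b
    · subst hab
      have h1 : a ∈ I A C a := (mem_I A).2 fun s hs => h.c s a hs
      have h2 : a ∈ N A (C a) := (mem_N A).2 ⟨a, h.c a a (hrefl a), hrefl a⟩
      have h3 : a ∈ N A (U a) := (mem_N A).2 ⟨a, (memU a a).2 (Or.inl rfl), hrefl a⟩
      have h4 : a ∈ I A U a := (mem_I A).2 fun s hs => hBU s (h.b s a hs)
      rw [if_pos h1, if_pos h2, if_pos h3, if_pos h4]
      split_ifs <;> omega
    · have hα : b ∈ U a ↔ a ∉ C b := by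
        rw [memU]
        constructor
        · rintro (h1 | h1)
          · exact absurd h1.symm hab
          · exact h1
        · exact Or.inr
      have hβ : a ∈ I A C b ↔ b ∉ N A (U a) := by
        constructor
        · intro h1 h2
          obtain ⟨x, hx, hxb⟩ := (mem_N A).1 h2
          rw [memU] at hx
          rw [mem_I] at h1
          rcases hx with hx | hx
          · subst hx
            exact hab (h.d x b (h.b x b hxb) (h1 b (hrefl b)))
          · exact hx (h1 x hxb)
        · intro h1
          rw [mem_I]
          intro s hs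
          by_contra h2
          exact h1 ((mem_N A).2 ⟨s, (memU a s).2 (Or.inr h2), hs⟩)
      have hγ : a ∈ N A (C b) ↔ b ∉ I A U a := by
        constructor
        · intro h1 h2
          obtain ⟨t, ht, hta⟩ := (mem_N A).1 h1
          rw [mem_I] at h2
          have h3 := h2 t hta
          rw [memU] at h3
          rcases h3 with h3 | h3
          · subst h3
            have h4 := h2 a (hrefl a)
            rw [memU] at h4
            rcases h4 with h4 | h4
            · exact hab h4.symm
            · exact h4 (h.c b a hta)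
          · exact h3 ht
        · intro h1
          by_contra h2
          apply h1
          rw [mem_I]
          intro s hs
          rw [memU]
          right
          intro h3
          exact h2 ((mem_N A).2 ⟨s, h3, hs⟩)
      have hδ : ¬ (a ∈ N A (I A C b) ∧ b ∈ N A (I A U a)) := by
        rintro ⟨h1, h2⟩
        obtain ⟨t, ht, hta⟩ := (mem_N A).1 h1
        obtain ⟨x, hx, hxb⟩ := (mem_N A).1 h2
        rw [mem_I] at ht hx
        have h3 := hx t hta
        rw [memU] at h3
        rcases h3 with h3 | h3
        · subst h3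
          have h4 := hx a (hrefl a)
          rw [memU] at h4
          rcases h4 with h4 | h4
          · subst h4
            exact hab (h.d x b (h.b x b hxb) (ht b (hrefl b)))
          · exact h4 (h.c x a hta)
        · exact h3 (ht x hxb)
      have e1 : (if b ∈ U a then (1 : ℤ) else 0) = 1 - (if a ∈ C b then (1 : ℤ) else 0) := by
        by_cases h1 : a ∈ C b
        · rw [if_neg (fun h2 => (hα.1 h2) h1), if_pos h1]
          norm_num
        · rw [if_pos (hα.2 h1), if_neg h1]
          norm_num
      have e2 : (if a ∈ I A C b then (1 : ℤ) else 0) =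
          1 - (if b ∈ N A (U a) then (1 : ℤ) else 0) := by
        by_cases h1 : b ∈ N A (U a)
        · rw [if_neg (fun h2 => (hβ.1 h2) h1), if_pos h1]
          norm_num
        · rw [if_pos (hβ.2 h1), if_neg h1]
          norm_num
      have e3 : (if a ∈ N A (C b) then (1 : ℤ) else 0) =
          1 - (if b ∈ I A U a then (1 : ℤ) else 0) := by
        by_cases h1 : b ∈ I A U a
        · rw [if_neg (fun h2 => (hγ.1 h2) h1), if_pos h1]
          norm_num
        · rw [if_pos (hγ.2 h1), if_neg h1]
          norm_num
      have e4 : (if a ∈ N A (I A C b) then (1 : ℤ) else 0) +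
          (if b ∈ N A (I A U a) then (1 : ℤ) else 0) ≤ 1 := by
        by_cases h1 : a ∈ N A (I A C b)
        · rw [if_pos h1, if_neg (fun h2 => hδ ⟨h1, h2⟩)]
          norm_num
        · rw [if_neg h1]
          split_ifs <;> norm_num
      rw [e1, e2, e3]
      linarith
  have hsum := Finset.sum_le_sum fun a (_ : a ∈ (univ : Finset V)) =>
    Finset.sum_le_sum fun b (_ : b ∈ (univ : Finset V)) => hpt a b
  simp only [Finset.sum_add_distrib] at hsum
  rw [← sum_card', ← sum_card', ← sum_card, ← sum_card, ← sum_card', ← sum_card', ← sum_card,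
    ← sum_card] at hsum
  unfold E
  unfold c at hkey ⊢
  simp only [Finset.sum_sub_distrib] at hkey ⊢
  linarith

end Cuts

end Vale.Agent.P038.H442
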